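import Mathlib
import Vale.Agent.Lib.P137.helper41.Defs

/-!
Pool job P137-BR1 (backup copy, seat helper19): the centered maximal function of a Lipschitz
function moves by at most the Lipschitz constant times the distance.
-/

namespace Vale.Agent.Lib.P137.H19

open Vale.Agent.Lib.P137 MeasureTheory Metric Set Filter
open scoped ENNReal NNReal Topology

theorem cmax_lipschitz {d : ℕ} (g : E d → ℝ) {L : ℝ≥0} (hL : LipschitzWith L g) (x y : E d) :
    cmax (fun z => ENNReal.ofReal (g z)) x ≤
      cmax (fun z => ENNReal.ofReal (g z)) y + ENNReal.ofReal (L * dist x y) := by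
  unfold cmax
  refine iSup₂_le (fun r hr => ?_)
  have hV : volume (ball x r) = volume (ball y r) := by
    rw [Measure.addHaar_ball_center volume x r, Measure.addHaar_ball_center volume y r]
  have hV0 : volume (ball y r) ≠ 0 := (measure_ball_pos volume y hr).ne'
  have hVt : volume (ball y r) ≠ ∞ := measure_ball_lt_top.ne
  have htr : ∫⁻ z in ball x r, ENNReal.ofReal (g z) =
      ∫⁻ z in ball y r, ENNReal.ofReal (g (z + (x - y))) := by
    rw [← lintegral_indicator measurableSet_ball, ← lintegral_indicator measurableSet_ball,
      ← lintegral_add_right_eq_self _ (x - y)]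
    refine lintegral_congr (fun z => ?_)
    have hmem : z + (x - y) ∈ ball x r ↔ z ∈ ball y r := by
      rw [mem_ball, mem_ball, dist_eq_norm, dist_eq_norm]
      have : z + (x - y) - x = z - y := by abel
      rw [this]
    by_cases hz : z ∈ ball y r
    · rw [indicator_of_mem hz, indicator_of_mem (hmem.mpr hz)]
    · rw [indicator_of_notMem hz, indicator_of_notMem (fun h => hz (hmem.mp h))]
  have hpt : ∀ z : E d, ENNReal.ofReal (g (z + (x - y))) ≤
      ENNReal.ofReal (g z) + ENNReal.ofReal (L * dist x y) := by
    intro z
    have h1 := hL.dist_le_mul (z + (x - y)) z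
    have h2 : dist (z + (x - y)) z = dist x y := by
      rw [dist_eq_norm, dist_eq_norm]
      have : z + (x - y) - z = x - y := by abel
      rw [this]
    rw [h2, Real.dist_eq] at h1
    have h3 : g (z + (x - y)) ≤ g z + L * dist x y := by
      have := le_abs_self (g (z + (x - y)) - g z)
      linarith
    exact (ENNReal.ofReal_le_ofReal h3).trans ENNReal.ofReal_add_le
  have hint : ∫⁻ z in ball y r, ENNReal.ofReal (g (z + (x - y))) ≤
      (∫⁻ z in ball y r, ENNReal.ofReal (g z)) +
        ENNReal.ofReal (L * dist x y) * volume (ball y r) := by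
    calc ∫⁻ z in ball y r, ENNReal.ofReal (g (z + (x - y)))
        ≤ ∫⁻ z in ball y r, (ENNReal.ofReal (g z) + ENNReal.ofReal (L * dist x y)) :=
          lintegral_mono (fun z => hpt z)
      _ = (∫⁻ z in ball y r, ENNReal.ofReal (g z)) +
            ENNReal.ofReal (L * dist x y) * volume (ball y r) := by
          rw [lintegral_add_right _ measurable_const, setLIntegral_const]
  rw [htr, hV]
  calc (∫⁻ z in ball y r, ENNReal.ofReal (g (z + (x - y)))) / volume (ball y r)
      ≤ ((∫⁻ z in ball y r, ENNReal.ofReal (g z)) +
          ENNReal.ofReal (L * dist x y) * volume (ball y r)) / volume (ball y r) :=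
        ENNReal.div_le_div_right hint _
    _ = (∫⁻ z in ball y r, ENNReal.ofReal (g z)) / volume (ball y r) +
          ENNReal.ofReal (L * dist x y) := by
        rw [ENNReal.add_div, ENNReal.mul_div_cancel_right hV0 hVt]
    _ ≤ (⨆ r : ℝ, ⨆ _ : 0 < r, (∫⁻ z in ball y r, ENNReal.ofReal (g z)) / volume (ball y r)) +
          ENNReal.ofReal (L * dist x y) := by
        refine add_le_add ?_ le_rfl
        exact le_iSup₂ (f := fun r (_ : 0 < r) =>
          (∫⁻ z in ball y r, ENNReal.ofReal (g z)) / volume (ball y r)) r hr

end Vale.Agent.Lib.P137.H19
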